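import Vale.Agent.P290Z.K.InvP
import Vale.Agent.P290Z.K.NNP

/-!
# P290Z, part III (K): holomorphic coordinates for a family of closed two-forms on `Fin 2 → ℂ`
-/

open scoped ContDiff Topology
open Set Filter

noncomputable section

namespace Vale.Agent.P290Z.Kur.Chart

open NNP

/-- the real linear identification -/
def ψ : CC ≃L[ℝ] (Fin 2 → ℂ) := (ContinuousLinearEquiv.finTwoArrow ℝ ℂ).symm

theorem Dv_clm {P E F : Type} [NormedAddCommGroup E] [NormedSpace ℝ E] [NormedAddCommGroup F]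
    [NormedSpace ℝ F] (L : E ≃L[ℝ] F) (q : P × E) (u : E) :
    Dv (fun q : P × E => L q.2) q u = L u :=
  congrArg (fun T : E →L[ℝ] F => T u) L.hasFDerivAt.fderiv

theorem core (h2 : StPoin2) (hN : StNNP) {V : Type} [NormedAddCommGroup V] [NormedSpace ℝ V]
    [FiniteDimensional ℝ V] {σ : V × (Fin 2 → ℂ) → (Fin 2 → ℂ) →L[ℝ] (Fin 2 → ℂ) →L[ℝ] ℂ} {v₀ : V}
    {z₀ : Fin 2 → ℂ} {p : (Fin 2 → ℂ) → ℂ} {T : Set V} {O : Set (V × (Fin 2 → ℂ))}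
    (hO : O ∈ 𝓝 (v₀, z₀)) (hp : p z₀ ≠ 0)
    (h : ∀ᶠ q in 𝓝 (v₀, z₀), (ContDiffAt ℝ ∞ σ q ∧ (∀ u v, σ q u v = -σ q v u) ∧
      ∀ u v w, Dv σ q u v w + Dv σ q v w u + Dv σ q w u v = 0) ∧
      (q.1 = v₀ → ∀ u v, σ q u v = p q.2 * (u 0 * v 1 - u 1 * v 0)) ∧
      (q.1 ∈ T → Null fun u v => σ q u v)) :
    ∃ (H : OpenPartialHomeomorph (V × (Fin 2 → ℂ)) (V × CC)) (g : V × CC → ℂ),
      (v₀, z₀) ∈ H.source ∧ (∀ q ∈ H.source, q ∈ O ∧ (H q).1 = q.1 ∧ ContDiffAt ℝ ∞ H q ∧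
        0 < (Dv (fun q => ψ (H q).2) q).det ∧ (q.1 ∈ T → ∀ u v, σ q u v =
          g (H q) * dt (Dv (fun q => (H q).2) q u) (Dv (fun q => (H q).2) q v))) ∧
      ∀ r ∈ H.target, ContDiffAt ℝ ∞ H.symm r ∧ ContDiffAt ℝ ∞ g r ∧ g r ≠ 0 ∧
        (r.1 ∈ T → DifferentiableAt ℂ (fun w => g (r.1, w)) r.2) := by
  obtain ⟨lam, hl⟩ := h2 V _ σ v₀ z₀ (h.mono fun q hq => hq.1)
  obtain ⟨y₀, rfl⟩ := ψ.surjective z₀
  have c0 : ContDiff ℝ ∞ fun q : V × CC => ψ q.2 := ψ.contDiff.comp contDiff_snd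
  have c1 : ContDiff ℝ ∞ fun q : V × (Fin 2 → ℂ) => ψ.symm q.2 := ψ.symm.contDiff.comp contDiff_snd
  have t0 : Tendsto (fun q : V × CC => (q.1, ψ q.2)) (𝓝 (v₀, y₀)) (𝓝 (v₀, ψ y₀)) :=
    (continuous_fst.prodMk c0.continuous).tendsto _
  have p1 : ∀ᶠ q in 𝓝 (v₀, y₀), ContDiffAt ℝ ∞ (pull lam fun q : V × CC => ψ q.2) q ∧ ∀ u v,
      sg (pull lam fun q : V × CC => ψ q.2) q u v = σ (q.1, ψ q.2) (ψ u) (ψ v) := by
    filter_upwards [t0.eventually hl] with q hq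
    obtain ⟨a1, a2⟩ := pull_sg V CC _ lam _ q c0.contDiffAt hq.1
    exact ⟨a1, fun u v => by rw [a2, hq.2, Dv_clm, Dv_clm]⟩
  obtain ⟨H, g, a1, a2, a3, a4⟩ := hN V (pull lam fun q : V × CC => ψ q.2) v₀ y₀ (fun w => p (ψ w))
    T ⟨hp, by
      filter_upwards [p1, t0.eventually h] with q b1 b2
      exact ⟨b1.1, fun e u v => (b1.2 u v).trans (b2.2.1 e _ _)⟩⟩ (by
      filter_upwards [p1, t0.eventually h] with q b1 b2 e
      exact null_comp (σ := fun u v => σ (q.1, ψ q.2) u v) b1.2 (b2.2.2 e))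
    _ (inter_mem (t0 hO) p1)
  refine ⟨((Homeomorph.refl V).prodCongr ψ.symm.toHomeomorph).transOpenPartialHomeomorph H, g,
    (by simpa using a1 : (v₀, ψ.symm (ψ y₀)) ∈ H.source), fun q hq => ?_, fun r hr =>
      ⟨(contDiff_fst.prodMk c0).contDiffAt.comp r (a4 r hr).1, (a4 r hr).2⟩⟩
  obtain ⟨b1, b2, b3, b4⟩ := a3 (q.1, ψ.symm q.2) hq
  obtain ⟨b5, -, b6⟩ := a2 (show (q.1, ψ.symm q.2) ∈ H.source from hq)
  have b7 : ∀ u, Dv (fun q : V × (Fin 2 → ℂ) => (H (q.1, ψ.symm q.2)).2) q u =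
      Dv (fun q => (H q).2) (q.1, ψ.symm q.2) (ψ.symm u) := fun u => by
    rw [Dv_comp (f := fun q => (H q).2) c1.contDiffAt b2.snd, Dv_clm]
  have b8 := b2.comp q (contDiff_fst.prodMk c1).contDiffAt
  refine ⟨by simpa using b5, b1, b8, ?_, fun e u v => ?_⟩
  · have b9 : Dv (fun q : V × (Fin 2 → ℂ) => ψ (H (q.1, ψ.symm q.2)).2) q =
        (ψ : CC →L[ℝ] Fin 2 → ℂ) ∘L Dv (fun q => (H q).2) (q.1, ψ.symm q.2) ∘L
          (ψ.symm : (Fin 2 → ℂ) →L[ℝ] CC) := ContinuousLinearMap.ext fun u =>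
      (congrArg (fun T : (Fin 2 → ℂ) →L[ℝ] Fin 2 → ℂ => T u)
        (ψ.hasFDerivAt.comp q.2 (slice' b8.snd)).fderiv).trans (congrArg ψ (b7 u))
    exact b3.trans_eq ((congrArg ContinuousLinearMap.det b9).trans
      (LinearMap.det_conj _ ψ.toLinearEquiv)).symm
  · have b9 := (b6 (ψ.symm u) (ψ.symm v)).symm.trans (b4 e _ _)
    rw [← b7, ← b7, ψ.apply_symm_apply, ψ.apply_symm_apply, ψ.apply_symm_apply] at b9
    exact b9

end Vale.Agent.P290Z.Kur.Chart
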